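import Mathlib

/-!
# Tokens that follow a random walker (potential: a transport plan with extra mass everywhere)
-/

open MeasureTheory Finset

namespace Vale.Agent.N304B

theorem exists_hist {X S : Type} (I : List X → S → Prop) (T : List X → X → S → S → Prop)
    (s0 : S) (h0 : I [] s0) (hs : ∀ h r s, I h s → ∃ s', I (h ++ [r]) s' ∧ T h r s s') :
    ∃ st : List X → S, (∀ h, I h (st h)) ∧ ∀ h r, T h r (st h) (st (h ++ [r])) := by
  classical
  let nx : List X → X → S → S := fun h r s =>
    if H : ∃ s', I (h ++ [r]) s' ∧ T h r s s' then H.choose else s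
  have hnx : ∀ h r s, I h s → I (h ++ [r]) (nx h r s) ∧ T h r s (nx h r s) := by
    intro h r s hI
    have H := hs h r s hI
    simp only [nx, dif_pos H]
    exact H.choose_spec
  let f : List X → S := fun l => List.rec s0 (fun r l s => nx l.reverse r s) l
  have hf : ∀ h r, f (h ++ [r]).reverse = nx h r (f h.reverse) := by
    intro h r
    simp [f]
  have hI : ∀ h, I h (f h.reverse) := by
    intro h
    induction h using List.reverseRecOn with
    | nil => exact h0
    | append_singleton h r ih => rw [hf]; exact (hnx h r _ ih).1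
  refine ⟨fun h => f h.reverse, hI, fun h r => ?_⟩
  simp only [hf]
  exact (hnx h r _ (hI h)).2

variable {Q : Type} [Fintype Q] [DecidableEq Q]

/-- cost of a plan -/
def cst (D π : Q → Q → ℝ) : ℝ := ∑ u, ∑ v, π u v * D u v

omit [DecidableEq Q] in
theorem glue (D π γ : Q → Q → ℝ) (β : ℝ) (hD : ∀ u v w, D u w ≤ D u v + D v w)
    (hπ : ∀ u v, 0 ≤ π u v) (hγ : ∀ v w, 0 ≤ γ v w)
    (hc : ∀ v, ∑ u, π u v = β * ∑ w, γ v w) :
    ∃ π' : Q → Q → ℝ, (∀ u w, 0 ≤ π' u w) ∧ (∀ u, ∑ w, π' u w = ∑ v, π u v) ∧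
      (∀ w, ∑ u, π' u w = β * ∑ v, γ v w) ∧ cst D π' ≤ cst D π + β * cst D γ := by
  set x : Q → ℝ := fun v => ∑ w, γ v w with hx
  have hx0 : ∀ v, 0 ≤ x v := fun v => sum_nonneg fun w _ => hγ v w
  set κ : Q → Q → ℝ := fun v w => γ v w / x v with hκ
  have hκ0 : ∀ v w, 0 ≤ κ v w := fun v w => div_nonneg (hγ v w) (hx0 v)
  have h1 : ∀ u v, π u v * ∑ w, κ v w = π u v := by
    intro u v
    by_cases hv : x v = 0
    · have h2 : ∑ u, π u v = 0 := by rw [hc v]; change β * x v = 0; rw [hv, mul_zero]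
      have h3 := (sum_eq_zero_iff_of_nonneg fun u _ => hπ u v).1 h2 u (mem_univ u)
      rw [h3, zero_mul]
    · have : ∑ w, κ v w = 1 := by
        simp only [hκ]
        rw [← sum_div]
        exact div_self hv
      rw [this, mul_one]
  have h2 : ∀ v w, (∑ u, π u v) * κ v w = β * γ v w := by
    intro v w
    rw [hc v]
    change β * x v * (γ v w / x v) = β * γ v w
    by_cases hv : x v = 0
    · have h3 := (sum_eq_zero_iff_of_nonneg fun w _ => hγ v w).1 hv w (mem_univ w)
      rw [h3]; simp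
    · field_simp
  refine ⟨fun u w => ∑ v, π u v * κ v w, fun u w =>
    sum_nonneg fun v _ => mul_nonneg (hπ u v) (hκ0 v w), fun u => ?_, fun w => ?_, ?_⟩
  · rw [sum_comm]
    exact sum_congr rfl fun v _ => by rw [← mul_sum, h1]
  · rw [sum_comm, mul_sum]
    exact sum_congr rfl fun v _ => by rw [← sum_mul, h2]
  · have e1 : cst D π = ∑ u, ∑ w, ∑ v, π u v * κ v w * D u v := by
      refine sum_congr rfl fun u _ => ?_
      rw [sum_comm]
      refine sum_congr rfl fun v _ => ?_
      rw [← sum_mul, ← mul_sum, h1]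
    have e2 : β * cst D γ = ∑ u, ∑ w, ∑ v, π u v * κ v w * D v w := by
      rw [sum_comm]
      unfold cst
      rw [sum_comm, mul_sum]
      refine sum_congr rfl fun w _ => ?_
      rw [sum_comm, mul_sum]
      refine sum_congr rfl fun v _ => ?_
      rw [← sum_mul, ← sum_mul, h2, mul_assoc]
    rw [e1, e2, ← sum_add_distrib]
    refine sum_le_sum fun u _ => ?_
    rw [← sum_add_distrib]
    refine sum_le_sum fun w _ => ?_
    rw [← sum_add_distrib, sum_mul]
    refine sum_le_sum fun v _ => ?_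
    rw [← mul_add]
    exact mul_le_mul_of_nonneg_left (hD u v w) (mul_nonneg (hπ u v) (hκ0 v w))

/-- number of tokens at `u` -/
def cnt {K : ℕ} (y : Fin K → Q) (u : Q) : ℝ := ∑ j, if y j = u then 1 else 0

omit [Fintype Q] in
theorem cnt_nonneg {K : ℕ} (y : Fin K → Q) (u : Q) : 0 ≤ cnt y u :=
  sum_nonneg fun j _ => by split_ifs <;> norm_num

theorem sum_cnt {K : ℕ} (y : Fin K → Q) : ∑ u, cnt y u = K := by
  unfold cnt
  rw [sum_comm]
  simp

omit [Fintype Q] in
theorem cnt_update {K : ℕ} (y : Fin K → Q) (j : Fin K) (v u : Q) :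
    cnt (Function.update y j v) u =
      cnt y u - (if u = y j then 1 else 0) + (if u = v then 1 else 0) := by
  unfold cnt
  rw [← add_sum_erase _ _ (mem_univ j), ← add_sum_erase univ
    (fun i => if y i = u then (1 : ℝ) else 0) (mem_univ j)]
  have : ∑ i ∈ univ.erase j, (if Function.update y j v i = u then (1 : ℝ) else 0) =
      ∑ i ∈ univ.erase j, if y i = u then (1 : ℝ) else 0 :=
    sum_congr rfl fun i hi => by rw [Function.update_of_ne (ne_of_mem_erase hi)]
  rw [this, Function.update_self]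
  simp only [eq_comm (a := u)]
  ring

theorem move_one {K : ℕ} (D π : Q → Q → ℝ) (hD : ∀ u, D u u = 0) (y : Fin K → Q) (j : Fin K)
    (hπ : ∀ u v, 0 ≤ π u v) (hr : ∀ u, ∑ v, π u v = cnt y u + Fintype.card Q) :
    ∃ (v : Q) (π' : Q → Q → ℝ), (∀ u w, 0 ≤ π' u w) ∧
      (∀ u, ∑ w, π' u w = cnt (Function.update y j v) u + Fintype.card Q) ∧
      (∀ w, ∑ u, π' u w = ∑ u, π u w) ∧ ∑ u, π u v ≠ 0 ∧ D (y j) v + cst D π' = cst D π := by
  have : Nonempty Q := ⟨y j⟩
  obtain ⟨v, -, hv⟩ : ∃ v ∈ (univ : Finset Q), (1 : ℝ) ≤ π (y j) v := by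
    refine exists_le_of_sum_le univ_nonempty ?_
    rw [hr]
    have := cnt_nonneg y (y j)
    simp only [sum_const, card_univ, nsmul_eq_mul, mul_one]
    linarith
  refine ⟨v, fun a b => π a b - (if a = y j then if b = v then 1 else 0 else 0)
    + (if a = v then if b = v then 1 else 0 else 0), fun a b => ?_, fun a => ?_, fun b => ?_,
    ?_, ?_⟩
  · have h0 := hπ a b
    have h3 : (0 : ℝ) ≤ if a = v then if b = v then 1 else 0 else 0 := by
      split_ifs <;> norm_num
    have h4 : (if a = y j then if b = v then (1 : ℝ) else 0 else 0) ≤ π a b := by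
      split_ifs with h1 h2
      · rw [h1, h2]; exact hv
      · exact h0
      · exact h0
    linarith
  · rw [sum_add_distrib, sum_sub_distrib, hr, cnt_update]
    have e : ∀ c : Q, ∑ b, (if a = c then if b = v then (1 : ℝ) else 0 else 0) =
        if a = c then 1 else 0 := by
      intro c
      split_ifs <;> simp
    rw [e, e]
    ring
  · rw [sum_add_distrib, sum_sub_distrib]
    simp
  · have h1 : π (y j) v ≤ ∑ u, π u v := single_le_sum (f := fun u => π u v)
      (fun u _ => hπ u v) (mem_univ _)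
    exact ne_of_gt (by linarith)
  · unfold cst
    simp only [add_mul, sub_mul, sum_add_distrib, sum_sub_distrib]
    have e : ∀ c : Q, ∑ a, ∑ b, (if a = c then if b = v then (1 : ℝ) else 0 else 0) * D a b =
        D c v := by
      intro c
      rw [sum_eq_single c]
      · simp
      · intro a _ ha
        simp [ha]
      · simp
    rw [e, e, hD]
    ring

theorem move_all {K : ℕ} (D π : Q → Q → ℝ) (hD : ∀ u, D u u = 0) (y : Fin K → Q)
    (hπ : ∀ u v, 0 ≤ π u v) (hr : ∀ u, ∑ v, π u v = cnt y u + Fintype.card Q)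
    (J : Finset (Fin K)) :
    ∃ (y' : Fin K → Q) (π' : Q → Q → ℝ), (∀ u w, 0 ≤ π' u w) ∧
      (∀ u, ∑ w, π' u w = cnt y' u + Fintype.card Q) ∧
      (∀ w, ∑ u, π' u w = ∑ u, π u w) ∧ (∀ j ∈ J, ∑ u, π u (y' j) ≠ 0) ∧
      (∀ j ∉ J, y' j = y j) ∧ ∑ j ∈ J, D (y j) (y' j) + cst D π' = cst D π := by
  induction J using Finset.induction_on with
  | empty => exact ⟨y, π, hπ, hr, fun _ => rfl, by simp, fun _ _ => rfl, by simp⟩
  | insert j J hj ih =>
    obtain ⟨y1, π1, h1, h2, h3, h4, h5, h6⟩ := ih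
    obtain ⟨v, π2, g1, g2, g3, g4, g5⟩ := move_one D π1 hD y1 j h1 h2
    refine ⟨Function.update y1 j v, π2, g1, g2, fun w => (g3 w).trans (h3 w), fun i hi => ?_,
      fun i hi => ?_, ?_⟩
    · rcases mem_insert.1 hi with rfl | hi'
      · rw [Function.update_self, ← h3]; exact g4
      · rw [Function.update_of_ne (by rintro rfl; exact hj hi')]; exact h4 i hi'
    · rw [mem_insert, not_or] at hi
      rw [Function.update_of_ne hi.1]; exact h5 i hi.2
    · rw [sum_insert hj, Function.update_self]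
      have : ∑ i ∈ J, D (y i) (Function.update y1 j v i) = ∑ i ∈ J, D (y i) (y1 i) :=
        sum_congr rfl fun i hi => by rw [Function.update_of_ne (by rintro rfl; exact hj hi)]
      rw [this, ← h5 j hj]
      linarith

/-- total movement of a walker that depends on the history -/
def mv {X Q : Type} (D : Q → Q → ℝ) (v : List X → Q) (σ : List X) : ℝ :=
  ∑ t ∈ range σ.length, D (v (σ.take t)) (v (σ.take (t + 1)))

theorem mv_nil {X Q : Type} (D : Q → Q → ℝ) (v : List X → Q) : mv D v [] = 0 := by simp [mv]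

theorem mv_snoc {X Q : Type} (D : Q → Q → ℝ) (v : List X → Q) (σ : List X) (r : X) :
    mv D v (σ ++ [r]) = mv D v σ + D (v σ) (v (σ ++ [r])) := by
  unfold mv
  rw [List.length_append, List.length_singleton, sum_range_succ]
  congr 1
  · refine sum_congr rfl fun t ht => ?_
    have ht := mem_range.1 ht
    rw [List.take_append_of_le_length (by omega), List.take_append_of_le_length (by omega)]
  · rw [List.take_left' rfl, List.take_of_length_le (by simp)]

theorem integrable_fin {Ω ι : Type} [MeasurableSpace Ω] (P : Measure Ω) [IsFiniteMeasure P]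
    [Finite ι] [MeasurableSpace ι] [MeasurableSingletonClass ι] {V : Ω → ι}
    (hV : Measurable V) (G : ι → ℝ) : Integrable (fun ω => G (V ω)) P := by
  have := Fintype.ofFinite ι
  refine Integrable.of_bound ((measurable_of_finite G).comp hV).aestronglyMeasurable
    (∑ i, |G i|) (Filter.Eventually.of_forall fun ω => ?_)
  rw [Real.norm_eq_abs]
  exact single_le_sum (f := fun i => |G i|) (fun i _ => abs_nonneg _) (mem_univ (V ω))

/-- `K` tokens can follow a random walker on `N` states, always inside the feasible sets, with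
total movement at most `K + N ^ 2` times the expected movement of the walker. -/
theorem tokens {X Ω : Type} [MeasurableSpace Ω] [MeasurableSpace Q] [MeasurableSingletonClass Q]
    (P : Measure Ω) [IsProbabilityMeasure P] (D : Q → Q → ℝ) (hD0 : ∀ u v, 0 ≤ D u v)
    (hD1 : ∀ u, D u u = 0) (hD : ∀ u v w, D u w ≤ D u v + D v w) (Y : Ω → List X → Q)
    (hY : ∀ h, Measurable fun ω => Y ω h) (F : X → Q → Prop)
    (hF : ∀ ω h r, F r (Y ω (h ++ [r]))) (K : ℕ) (u0 : Q) :
    ∃ (y : List X → Fin K → Q) (B : ℝ), (∀ h r j, F r (y (h ++ [r]) j)) ∧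
      ∀ σ, Integrable (fun ω => mv D (Y ω) σ) P ∧ ∑ j, mv D (fun h => y h j) σ ≤
        (K + (Fintype.card Q : ℝ) ^ 2) * ∫ ω, mv D (Y ω) σ ∂P + B := by
  classical
  set N : ℝ := (Fintype.card Q : ℝ) with hN
  set β : ℝ := K + N ^ 2 with hβ
  let x : List X → Q → ℝ := fun h v => ∫ ω, (if Y ω h = v then (1 : ℝ) else 0) ∂P
  let γ : List X → List X → Q → Q → ℝ := fun h h' v w =>
    ∫ ω, (if Y ω h = v then (1 : ℝ) else 0) * (if Y ω h' = w then (1 : ℝ) else 0) ∂P
  have i1 : ∀ h (G : Q → ℝ), Integrable (fun ω => G (Y ω h)) P := fun h G =>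
    integrable_fin P (hY h) G
  have i2 : ∀ h h' (G : Q → Q → ℝ), Integrable (fun ω => G (Y ω h) (Y ω h')) P := fun h h' G =>
    integrable_fin P ((hY h).prodMk (hY h')) (fun z : Q × Q => G z.1 z.2)
  have i3 : ∀ h h' v w, Integrable (fun ω => (if Y ω h = v then (1 : ℝ) else 0) *
      (if Y ω h' = w then (1 : ℝ) else 0)) P := fun h h' v w =>
    i2 h h' fun a b => (if a = v then (1 : ℝ) else 0) * (if b = w then (1 : ℝ) else 0)
  have x0 : ∀ h v, 0 ≤ x h v := fun h v =>
    integral_nonneg fun ω => by dsimp only; split_ifs <;> norm_num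
  have x1 : ∀ h, ∑ v, x h v = 1 := by
    intro h
    simp only [x]
    rw [← integral_finsetSum _ fun v _ => i1 h fun a => if a = v then (1 : ℝ) else 0]
    simp
  have γ0 : ∀ h h' v w, 0 ≤ γ h h' v w := fun h h' v w =>
    integral_nonneg fun ω => by dsimp only; split_ifs <;> norm_num
  have γ1 : ∀ h h' v, ∑ w, γ h h' v w = x h v := by
    intro h h' v
    simp only [x, γ]
    rw [← integral_finsetSum _ fun w _ => i3 h h' v w]
    simp
  have γ2 : ∀ h h' w, ∑ v, γ h h' v w = x h' w := by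
    intro h h' w
    simp only [x, γ]
    rw [← integral_finsetSum _ fun v _ => i3 h h' v w]
    simp
  have γ3 : ∀ h h', cst D (γ h h') = ∫ ω, D (Y ω h) (Y ω h') ∂P := by
    intro h h'
    simp only [cst, γ, ← integral_mul_const]
    have e : ∀ v, ∑ w, ∫ ω, (if Y ω h = v then (1 : ℝ) else 0) *
        (if Y ω h' = w then (1 : ℝ) else 0) * D v w ∂P = ∫ ω, ∑ w, (if Y ω h = v then (1 : ℝ)
        else 0) * (if Y ω h' = w then (1 : ℝ) else 0) * D v w ∂P := fun v =>
      (integral_finsetSum _ fun w _ => (i3 h h' v w).mul_const _).symm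
    simp only [e]
    rw [← integral_finsetSum _ fun v _ =>
      integrable_finsetSum _ fun w _ => (i3 h h' v w).mul_const _]
    simp
  obtain ⟨st, hI, hT⟩ := exists_hist (X := X) (S := (Fin K → Q) × (Q → Q → ℝ))
    (fun h s => (∀ u v, 0 ≤ s.2 u v) ∧ (∀ u, ∑ v, s.2 u v = cnt s.1 u + N) ∧
      ∀ v, ∑ u, s.2 u v = β * x h v)
    (fun h r s s' => (∀ j, F r (s'.1 j)) ∧ ∑ j, D (s.1 j) (s'.1 j) + cst D s'.2 ≤
      cst D s.2 + β * ∫ ω, D (Y ω h) (Y ω (h ++ [r])) ∂P)
    (fun _ => u0, fun u v => (cnt (fun _ : Fin K => u0) u + N) * x [] v)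
    ⟨fun u v => mul_nonneg (add_nonneg (cnt_nonneg _ _) (by positivity)) (x0 _ _),
      fun u => by rw [← mul_sum, x1, mul_one],
      fun v => by
        rw [← sum_mul, sum_add_distrib, sum_cnt]
        simp only [sum_const, card_univ, nsmul_eq_mul, hβ, hN, sq]⟩
    (by
      rintro h r ⟨y, π⟩ ⟨h1, h2, h3⟩
      obtain ⟨π1, a1, a2, a3, a4⟩ := glue D π (γ h (h ++ [r])) β hD h1 (γ0 _ _)
        (fun v => by rw [γ1]; exact h3 v)
      obtain ⟨y', π', b1, b2, b3, b4, -, b6⟩ := move_all D π1 hD1 y a1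
        (fun u => (a2 u).trans (h2 u)) univ
      refine ⟨(y', π'), ⟨b1, b2, fun v => by rw [b3, a3, γ2]⟩, fun j => ?_, ?_⟩
      · by_contra hn
        refine b4 j (mem_univ j) ?_
        rw [a3, γ2]
        have : ∀ ω, Y ω (h ++ [r]) ≠ y' j := fun ω e => hn (by
          have := hF ω h r
          rw [e] at this
          exact this)
        simp [x, this]
      · rw [γ3] at a4
        exact b6.le.trans a4)
  refine ⟨fun h => (st h).1, cst D (st []).2, fun h r j => (hT h r).1 j, fun σ => ?_⟩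
  have key : Integrable (fun ω => mv D (Y ω) σ) P ∧ ∑ j, mv D (fun h => (st h).1 j) σ +
      cst D (st σ).2 ≤ β * ∫ ω, mv D (Y ω) σ ∂P + cst D (st []).2 := by
    induction σ using List.reverseRecOn with
    | nil => simp [mv_nil]
    | append_singleton σ r ih =>
      simp only [mv_snoc]
      refine ⟨ih.1.add (i2 _ _ D), ?_⟩
      rw [integral_add ih.1 (i2 _ _ D), sum_add_distrib, mul_add]
      have := (hT σ r).2
      linarith [ih.2]
  have : 0 ≤ cst D (st σ).2 := sum_nonneg fun u _ => sum_nonneg fun v _ =>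
    mul_nonneg ((hI σ).1 u v) (hD0 u v)
  exact ⟨key.1, by linarith [key.2]⟩

end Vale.Agent.N304B
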