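import Vale.Agent.P304.Bdl.B1
import Vale.Agent.N304B.Tok

/-!
# Lazy followers; finitely many deterministic policies out of a randomized one
-/

open MeasureTheory Finset

namespace Vale.Agent.N304B

open Vale.Agent.P304

variable {X : Type} [MetricSpace X] {k : ℕ}

theorem runCost_snoc (a : List X → Fin k) (s : Fin k → X) (σ : List X) (r : X) :
    runCost a [] s (σ ++ [r]) =
      runCost a [] s σ + dist (runPos a [] s σ (a (σ ++ [r]))) r := by
  rw [runCost_append]
  simp [runCost]

theorem runPos_snoc (a : List X → Fin k) (s : Fin k → X) (σ : List X) (r : X) :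
    runPos a [] s (σ ++ [r]) = Function.update (runPos a [] s σ) (a (σ ++ [r])) r := by
  rw [runPos_append]
  simp [runPos]

theorem mv_le_runCost (a : List X → Fin k) (s : Fin k → X) (σ : List X) :
    mv mdist (fun h => runPos a [] s h) σ ≤ runCost a [] s σ := by
  induction σ using List.reverseRecOn with
  | nil => simp [mv_nil, runCost]
  | append_singleton σ r ih =>
    rw [mv_snoc, runCost_snoc, runPos_snoc]
    exact add_le_add ih (mdist_update _ _ _)

theorem exists_pick (p q : Fin k → X) (r : X) (hq : ∃ j, q j = r) :
    ∃ i, dist (p i) r + mdist (Function.update p i r) q ≤ mdist p q ∧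
      (Function.Injective p → Function.Injective (Function.update p i r)) := by
  by_cases hr : ∃ i, p i = r
  · obtain ⟨i, hi⟩ := hr
    have : Function.update p i r = p := by rw [← hi]; exact Function.update_eq_self i p
    refine ⟨i, ?_, fun hp => by rw [this]; exact hp⟩
    rw [this, hi, dist_self, zero_add]
  · push Not at hr
    obtain ⟨j, hj⟩ := hq
    obtain ⟨π, hπ⟩ := exists_mdist p q
    refine ⟨π j, ?_, fun hp x y hxy => ?_⟩
    · have h1 := lab_update π p q j r
      have h2 : Function.update q j r = q := by rw [← hj]; exact Function.update_eq_self j q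
      rw [h2, hj, dist_self, add_zero] at h1
      have h3 := mdist_le π (Function.update p (π j) r) q
      linarith
    · by_cases hx : x = π j <;> by_cases hy : y = π j
      · rw [hx, hy]
      · subst hx
        rw [Function.update_self, Function.update_of_ne hy] at hxy
        exact absurd hxy.symm (hr y)
      · subst hy
        rw [Function.update_self, Function.update_of_ne hx] at hxy
        exact absurd hxy (hr x)
      · rw [Function.update_of_ne hx, Function.update_of_ne hy] at hxy
        exact hp hxy

open Classical in
/-- the server that a follower at `p` of the configuration `q` sends to `r` -/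
noncomputable def pick [NeZero k] (p q : Fin k → X) (r : X) : Fin k :=
  if h : ∃ j, q j = r then (exists_pick p q r h).choose else 0

theorem pick_spec [NeZero k] (p q : Fin k → X) (r : X) (hq : ∃ j, q j = r) :
    dist (p (pick p q r)) r + mdist (Function.update p (pick p q r) r) q ≤ mdist p q ∧
      (Function.Injective p → Function.Injective (Function.update p (pick p q r) r)) := by
  unfold pick
  rw [dif_pos hq]
  exact (exists_pick p q r hq).choose_spec

/-- state of the follower; the argument is the reversed history -/
noncomputable def fst' [NeZero k] (v : List X → Fin k → X) (s : Fin k → X) :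
    List X → (Fin k → X) × Fin k
  | [] => (s, 0)
  | r :: l => (Function.update (fst' v s l).1 (pick (fst' v s l).1 (v (l.reverse ++ [r])) r) r,
      pick (fst' v s l).1 (v (l.reverse ++ [r])) r)

/-- the policy that follows the configurations `v` -/
noncomputable def fol [NeZero k] (v : List X → Fin k → X) (s : Fin k → X) (h : List X) : Fin k :=
  (fst' v s h.reverse).2

theorem runPos_fol [NeZero k] (v : List X → Fin k → X) (s : Fin k → X) (h : List X) :
    runPos (fol v s) [] s h = (fst' v s h.reverse).1 := by
  induction h using List.reverseRecOn with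
  | nil => simp [runPos, fst']
  | append_singleton h r ih =>
    rw [runPos_snoc, ih]
    simp [fol, fst']

theorem fol_snoc [NeZero k] (v : List X → Fin k → X) (s : Fin k → X) (h : List X) (r : X) :
    fol v s (h ++ [r]) = pick (runPos (fol v s) [] s h) (v (h ++ [r])) r := by
  rw [runPos_fol]
  simp [fol, fst']

theorem fol_cost [NeZero k] (v : List X → Fin k → X) (s : Fin k → X)
    (hv : ∀ h r, ∃ j, v (h ++ [r]) j = r) (σ : List X) :
    runCost (fol v s) [] s σ + mdist (runPos (fol v s) [] s σ) (v σ) ≤
      mdist s (v []) + mv mdist v σ := by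
  induction σ using List.reverseRecOn with
  | nil => simp [mv_nil, runCost, runPos]
  | append_singleton σ r ih =>
    rw [mv_snoc, runCost_snoc, runPos_snoc, fol_snoc]
    have h1 := (pick_spec (runPos (fol v s) [] s σ) (v (σ ++ [r])) r (hv σ r)).1
    have h2 := mdist_triangle (runPos (fol v s) [] s σ) (v σ) (v (σ ++ [r]))
    linarith

theorem fol_inj [NeZero k] (v : List X → Fin k → X) (s : Fin k → X)
    (hv : ∀ h r, ∃ j, v (h ++ [r]) j = r) (hs : Function.Injective s) (σ : List X) :
    Function.Injective (runPos (fol v s) [] s σ) := by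
  induction σ using List.reverseRecOn with
  | nil => simpa [runPos] using hs
  | append_singleton σ r ih =>
    rw [runPos_snoc, fol_snoc]
    exact (pick_spec _ (v (σ ++ [r])) r (hv σ r)).2 ih

theorem measurable_fol [NeZero k] [Finite X] [MeasurableSpace X] [MeasurableSingletonClass X]
    {Ω : Type} [MeasurableSpace Ω] (v : Ω → List X → Fin k → X)
    (hv : ∀ h, Measurable fun ω => v ω h) (s : Fin k → X) (σ : List X) :
    Measurable fun ω => runPos (fol (v ω) s) [] s σ := by
  induction σ using List.reverseRecOn with
  | nil => simp [runPos]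
  | append_singleton σ r ih =>
    simp only [runPos_snoc, fol_snoc]
    exact (measurable_of_finite fun z : (Fin k → X) × (Fin k → X) =>
      Function.update z.1 (pick z.1 z.2 r) r).comp (ih.prodMk (hv (σ ++ [r])))

/-- an enumeration of a `k`-set -/
noncomputable def enum (S : {S : Finset X // S.card = k}) : Fin k → X :=
  fun i => (S.1.equivFinOfCardEq S.2).symm i

open Classical in
/-- the set of positions -/
noncomputable def cls (S0 : {S : Finset X // S.card = k}) (p : Fin k → X) :
    {S : Finset X // S.card = k} :=
  if h : Function.Injective p then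
    ⟨univ.image p, by rw [card_image_of_injective _ h, card_univ, Fintype.card_fin]⟩ else S0

omit [MetricSpace X] in
theorem enum_inj (S : {S : Finset X // S.card = k}) : Function.Injective (enum S) :=
  fun _ _ h => (S.1.equivFinOfCardEq S.2).symm.injective (Subtype.ext h)

omit [MetricSpace X] in
theorem enum_cls (S0 : {S : Finset X // S.card = k}) {p : Fin k → X} (hp : Function.Injective p)
    (j : Fin k) : ∃ i, enum (cls S0 p) i = p j := by
  classical
  have h : p j ∈ (cls S0 p).1 := by
    unfold cls
    rw [dif_pos hp]
    simp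
  exact ⟨(cls S0 p).1.equivFinOfCardEq (cls S0 p).2 ⟨p j, h⟩, by simp [enum]⟩

theorem mdist_enum_cls (S0 : {S : Finset X // S.card = k}) {p : Fin k → X}
    (hp : Function.Injective p) : mdist (enum (cls S0 p)) p = 0 := by
  choose f hf using enum_cls S0 hp
  have hfi : Function.Injective f := fun i j h => hp (by rw [← hf, ← hf, h])
  refine le_antisymm ((mdist_le (Equiv.ofBijective f hfi.bijective_of_finite) _ _).trans ?_)
    (mdist_nonneg _ _)
  simp [lab, hf]

/-- `K` deterministic policies out of a randomized one. -/
theorem barely [NeZero k] [Fintype X] (hX : k ≤ Fintype.card X) (s : Fin k → X) {c : ℝ}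
    (hc : IsCompetitive s c) (K : ℕ) :
    ∃ (a : Fin K → List X → Fin k) (B : ℝ), ∀ σ, ∑ j, runCost (a j) [] s σ ≤
      (K + ((Fintype.card X).choose k : ℝ) ^ 2) * c * opt s σ + B := by
  classical
  obtain ⟨Ω, _, P, A, hP, hA, B, hB⟩ := hc
  obtain ⟨T, -, hT⟩ := exists_subset_card_eq (s := (univ : Finset X)) (n := k) (by simpa using hX)
  let S0 : {S : Finset X // S.card = k} := ⟨T, hT⟩
  let _ : MeasurableSpace X := ⊤
  let _ : MeasurableSpace {S : Finset X // S.card = k} := ⊤
  let v : Ω → List X → Fin k → X := fun ω h => runPos (A ω) [] s h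
  have hv : ∀ ω h r, ∃ j, v ω (h ++ [r]) j = r := fun ω h r =>
    ⟨A ω (h ++ [r]), by simp [v, runPos_snoc]⟩
  have hvm : ∀ h, Measurable fun ω => v ω h := fun h => measurable_run hA s h fun _ p => p
  let q : Ω → List X → Fin k → X := fun ω h => runPos (fol (v ω) (enum S0)) [] (enum S0) h
  have hq : ∀ ω h, Function.Injective (q ω h) := fun ω h =>
    fol_inj _ _ (hv ω) (enum_inj S0) h
  obtain ⟨y, B', hy, hB'⟩ := tokens (X := X) P (fun S T => mdist (enum S) (enum T))
    (fun _ _ => mdist_nonneg _ _) (fun _ => mdist_self _) (fun _ _ _ => mdist_triangle _ _ _)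
    (fun ω h => cls S0 (q ω h))
    (fun h => (measurable_of_finite (cls S0)).comp (measurable_fol v hvm _ h))
    (fun r S => ∃ i, enum S i = r)
    (fun ω h r => by
      obtain ⟨i, hi⟩ := enum_cls S0 (hq ω (h ++ [r])) (fol (v ω) (enum S0) (h ++ [r]))
      exact ⟨i, by rw [hi]; simp [q, runPos_snoc]⟩) K S0
  rw [Fintype.card_finset_len] at hB'
  set β : ℝ := K + ((Fintype.card X).choose k : ℝ) ^ 2 with hβ
  have hβ0 : 0 ≤ β := by positivity
  refine ⟨fun j => fol (fun h => enum (y h j)) s,
    ∑ j, mdist s (enum (y [] j)) + β * (mdist (enum S0) s + B) + B', fun σ => ?_⟩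
  have h1 : ∀ j, runCost (fol (fun h => enum (y h j)) s) [] s σ ≤ mdist s (enum (y [] j)) +
      mv (fun S T => mdist (enum S) (enum T)) (fun h => y h j) σ := by
    intro j
    have h2 := fol_cost (fun h => enum (y h j)) s (fun h r => hy h r j) σ
    have h3 := mdist_nonneg (runPos (fol (fun h => enum (y h j)) s) [] s σ) (enum (y σ j))
    have h4 : mv (fun S T => mdist (enum S) (enum T)) (fun h => y h j) σ =
      mv mdist (fun h => enum (y h j)) σ := rfl
    linarith
  have h2 : ∀ ω, mv (fun S T => mdist (enum S) (enum T)) (fun h => cls S0 (q ω h)) σ ≤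
      mdist (enum S0) s + policyCost s (A ω) σ := by
    intro ω
    have h3 : mv (fun S T => mdist (enum S) (enum T)) (fun h => cls S0 (q ω h)) σ ≤
        mv mdist (q ω) σ := by
      refine sum_le_sum fun t _ => ?_
      have e1 := mdist_enum_cls S0 (hq ω (σ.take t))
      have e2 := mdist_enum_cls S0 (hq ω (σ.take (t + 1)))
      rw [mdist_comm] at e2
      have t1 := mdist_triangle (enum (cls S0 (q ω (σ.take t)))) (q ω (σ.take t))
        (enum (cls S0 (q ω (σ.take (t + 1)))))
      have t2 := mdist_triangle (q ω (σ.take t)) (q ω (σ.take (t + 1)))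
        (enum (cls S0 (q ω (σ.take (t + 1)))))
      linarith
    have h4 := mv_le_runCost (fol (v ω) (enum S0)) (enum S0) σ
    have h5 := fol_cost (v ω) (enum S0) (hv ω) σ
    have h6 := mdist_nonneg (runPos (fol (v ω) (enum S0)) [] (enum S0) σ) (v ω σ)
    have h7 := mv_le_runCost (A ω) s σ
    have h8 : v ω [] = s := rfl
    rw [h8] at h5
    rw [policyCost_eq]
    exact h3.trans (h4.trans (by linarith))
  have hi : Integrable (fun ω => policyCost s (A ω) σ) P := by
    simp only [policyCost_eq]
    exact integrable_run hA s σ fun x _ => x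
  have h3 := integral_mono (hB' σ).1 ((integrable_const (mdist (enum S0) s)).add hi) h2
  rw [show ((fun _ : Ω => mdist (enum S0) s) + fun ω => policyCost s (A ω) σ) =
    fun ω => mdist (enum S0) s + policyCost s (A ω) σ from rfl,
    integral_add (integrable_const _) hi] at h3
  simp only [integral_const, probReal_univ, smul_eq_mul, one_mul] at h3
  have h4 := mul_le_mul_of_nonneg_left (h3.trans (add_le_add le_rfl (hB σ))) hβ0
  have h5 := sum_le_sum fun j (_ : j ∈ univ) => h1 j
  rw [sum_add_distrib] at h5
  have h6 := (hB' σ).2
  linarith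

end Vale.Agent.N304B
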