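import Vale.Agent.P304.Bdl.B1

/-!
# Every deterministic policy has ratio at least `k`
-/

open Finset

namespace Vale.Agent.N304B

open Vale.Agent.P304

variable {X : Type} [MetricSpace X] {k : ℕ}

/-- length of the walk through the list, started at `z` -/
noncomputable def walk : X → List X → ℝ
  | _, [] => 0
  | z, r :: σ => dist z r + walk r σ

theorem opt_cons_of_mem (p : Fin k → X) (r : X) (σ : List X) (h : ∃ i, p i = r) :
    opt p (r :: σ) ≤ opt p σ := by
  obtain ⟨i, hi⟩ := h
  have := opt_cons_le p r σ i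
  rw [show Function.update p i r = p by rw [← hi]; exact Function.update_eq_self i p, hi,
    dist_self, zero_add] at this
  exact this

theorem offline [DecidableEq X] (T : Finset X) (σ : List X) : ∀ (z : X) (c : X → Fin k → X),
    z ∈ T → (∀ r ∈ σ, r ∈ T) → (∀ h ∈ T.erase z, ∀ t ∈ T.erase h, ∃ i, c h i = t) →
      ∑ h ∈ T.erase z, opt (c h) σ ≤ walk z σ := by
  induction σ with
  | nil => intro z c _ _ _; simp [opt_nil, walk]
  | cons r σ ih =>
    intro z c hz hσ hc
    have hr : r ∈ T := hσ r List.mem_cons_self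
    have hσ' : ∀ x ∈ σ, x ∈ T := fun x hx => hσ x (List.mem_cons_of_mem _ hx)
    by_cases hrz : r = z
    · subst hrz
      simp only [walk, dist_self, zero_add]
      refine le_trans (sum_le_sum fun h hh => opt_cons_of_mem _ _ _ ?_) (ih r c hz hσ' hc)
      exact hc h hh r (mem_erase.2 ⟨(ne_of_mem_erase hh).symm, hr⟩)
    · have hr' : r ∈ T.erase z := mem_erase.2 ⟨hrz, hr⟩
      have hz' : z ∈ T.erase r := mem_erase.2 ⟨fun e => hrz e.symm, hz⟩
      obtain ⟨i, hi⟩ := hc r hr' z hz'
      have h1 := ih r (Function.update c z (Function.update (c r) i r)) hr hσ' (by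
        intro h hh t ht
        by_cases hhz : h = z
        · subst hhz
          rw [Function.update_self]
          by_cases htr : t = r
          · exact ⟨i, by rw [Function.update_self, htr]⟩
          · obtain ⟨i', hi'⟩ := hc r hr' t (mem_erase.2 ⟨htr, mem_of_mem_erase ht⟩)
            refine ⟨i', ?_⟩
            rw [Function.update_of_ne, hi']
            rintro rfl
            exact ne_of_mem_erase ht (hi'.symm.trans hi)
        · rw [Function.update_of_ne hhz]
          exact hc h (mem_erase.2 ⟨hhz, mem_of_mem_erase hh⟩) t ht)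
      rw [← add_sum_erase _ _ hz', Function.update_self] at h1
      rw [← add_sum_erase _ _ hr']
      have h2 := opt_cons_le (c r) r σ i
      rw [hi] at h2
      have h3 : ∑ h ∈ (T.erase z).erase r, opt (c h) (r :: σ) ≤ ∑ h ∈ (T.erase r).erase z,
          opt (Function.update c z (Function.update (c r) i r) h) σ := by
        rw [erase_right_comm]
        refine sum_le_sum fun h hh => ?_
        have hhz := ne_of_mem_erase hh
        have hh' := mem_of_mem_erase hh
        rw [Function.update_of_ne hhz]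
        exact opt_cons_of_mem _ _ _ (hc h (mem_erase.2 ⟨hhz, mem_of_mem_erase hh'⟩) r
          (mem_erase.2 ⟨(ne_of_mem_erase hh').symm, hr⟩))
      simp only [walk]
      linarith

/-- the points of `T` without a server -/
def free [DecidableEq X] (T : Finset X) (p : Fin k → X) : Finset X := T \ univ.image p

omit [MetricSpace X] in
theorem mem_free [DecidableEq X] {T : Finset X} {p : Fin k → X} {x : X} :
    x ∈ free T p ↔ x ∈ T ∧ ∀ i, p i ≠ x := by
  simp [free]

omit [MetricSpace X] in
theorem free_nonempty [DecidableEq X] {T : Finset X} (hT : T.card = k + 1) (p : Fin k → X) :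
    (free T p).Nonempty := by
  refine sdiff_nonempty_of_card_lt_card ?_
  have := card_image_le (s := univ) (f := p)
  rw [card_univ, Fintype.card_fin] at this
  omega

theorem online [DecidableEq X] (T : Finset X) (hT : T.card = k + 1) {δ Δ : ℝ}
    (hδ : ∀ x ∈ T, ∀ y ∈ T, x ≠ y → δ ≤ dist x y) (hΔ : ∀ x ∈ T, ∀ y ∈ T, dist x y ≤ Δ)
    (a : List X → Fin k) (m : ℕ) : ∀ (h : List X) (p : Fin k → X) (r : X), r ∈ free T p →
      ∃ σ : List X, (∀ x ∈ σ, x ∈ T) ∧ m * δ ≤ walk r σ ∧
        walk r σ ≤ runCost a h p (r :: σ) + Δ * (free T p).card := by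
  induction m with
  | zero =>
    intro h p r hr
    have h1 := (mem_free.1 hr).1
    have h2 : 0 ≤ Δ := dist_nonneg.trans (hΔ r h1 r h1)
    have h3 := runCost_nonneg a [r] h p
    exact ⟨[], by simp, by simp [walk], by simp only [walk]; positivity⟩
  | succ m ih =>
    intro h p r hr
    have h1 := (mem_free.1 hr).1
    have h2 : 0 ≤ Δ := dist_nonneg.trans (hΔ r h1 r h1)
    set i := a (h ++ [r]) with hi
    set p' := Function.update p i r with hp'
    have hsub : ∀ x ∈ free T p', x ≠ p i → x ∈ (free T p).erase r := by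
      intro x hx hxi
      obtain ⟨x1, x2⟩ := mem_free.1 hx
      refine mem_erase.2 ⟨fun e => x2 i (by simp [hp', e]), mem_free.2 ⟨x1, fun j => ?_⟩⟩
      by_cases hj : j = i
      · rw [hj]; exact hxi.symm
      · have := x2 j
        rwa [hp', Function.update_of_ne hj] at this
    have hcard : ((free T p).erase r).card + 1 = (free T p).card := card_erase_add_one hr
    obtain ⟨r', hr', hd⟩ : ∃ r' ∈ free T p', dist r r' + Δ * (free T p').card ≤
        dist (p i) r + Δ * (free T p).card := by
      by_cases hw : p i ∈ free T p'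
      · refine ⟨p i, hw, ?_⟩
        have h3 : free T p' ⊆ insert (p i) ((free T p).erase r) := fun x hx => by
          by_cases e : x = p i
          · exact mem_insert.2 (Or.inl e)
          · exact mem_insert_of_mem (hsub x hx e)
        have h4 : (free T p').card ≤ (free T p).card :=
          (card_le_card h3).trans ((card_insert_le _ _).trans hcard.le)
        have h5 : ((free T p').card : ℝ) ≤ (free T p).card := by exact_mod_cast h4
        rw [dist_comm]
        exact add_le_add le_rfl (mul_le_mul_of_nonneg_left h5 h2)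
      · obtain ⟨r', hr'⟩ := free_nonempty hT p'
        refine ⟨r', hr', ?_⟩
        have h3 : free T p' ⊆ (free T p).erase r := fun x hx =>
          hsub x hx (by rintro rfl; exact hw hx)
        have h4 : (free T p').card + 1 ≤ (free T p).card := by
          have := card_le_card h3
          omega
        have h5 : ((free T p').card : ℝ) + 1 ≤ (free T p).card := by exact_mod_cast h4
        have h6 := hΔ r h1 r' (mem_free.1 hr').1
        have h7 := mul_le_mul_of_nonneg_left h5 h2
        have h8 : 0 ≤ dist (p i) r := dist_nonneg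
        linarith
    obtain ⟨σ, s1, s2, s3⟩ := ih (h ++ [r]) p' r' hr'
    have hne : r ≠ r' := fun e => (mem_free.1 hr').2 i (by simp [hp', e])
    have h6 := hδ r h1 r' (mem_free.1 hr').1 hne
    refine ⟨r' :: σ, ?_, ?_, ?_⟩
    · intro x hx
      rcases List.mem_cons.1 hx with rfl | hx
      · exact (mem_free.1 hr').1
      · exact s1 x hx
    · simp only [walk]
      push_cast
      linarith
    · have e : runCost a h p (r :: r' :: σ) =
          dist (p i) r + runCost a (h ++ [r]) p' (r' :: σ) := rfl
      rw [e]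
      simp only [walk]
      linarith

theorem exists_finset {X : Type} (hX : ((k + 1 : ℕ) : ℕ∞) ≤ ENat.card X) :
    ∃ T : Finset X, T.card = k + 1 := by
  rcases finite_or_infinite X with hf | hf
  · have := Fintype.ofFinite X
    rw [ENat.card_eq_coe_fintype_card] at hX
    have : k + 1 ≤ (univ : Finset X).card := by
      rw [card_univ]; exact_mod_cast hX
    obtain ⟨t, -, ht⟩ := exists_subset_card_eq this
    exact ⟨t, ht⟩
  · exact Infinite.exists_subset_card_eq X (k + 1)

/-- sequences of unbounded cost on which the policy pays `k` times the optimum -/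
theorem hard [NeZero k] (hX : ((k + 1 : ℕ) : ℕ∞) ≤ ENat.card X) (s : Fin k → X)
    (a : List X → Fin k) : ∃ E : ℝ, ∀ M : ℝ, ∃ σ, M ≤ runCost a [] s σ ∧
      k * opt s σ ≤ runCost a [] s σ + E := by
  classical
  obtain ⟨T, hT⟩ := exists_finset hX
  obtain ⟨δ, hδ0, hδ⟩ := exists_delta T
  obtain ⟨Δ, hΔ⟩ := (Set.finite_range fun z : T × T => dist z.1 z.2).bddAbove
  have hδ' : ∀ x ∈ T, ∀ y ∈ T, x ≠ y → δ ≤ dist x y := fun x hx y hy hxy =>
    hδ ⟨x, hx⟩ ⟨y, hy⟩ fun e => hxy (congrArg Subtype.val e)
  have hΔ' : ∀ x ∈ T, ∀ y ∈ T, dist x y ≤ Δ := fun x hx y hy =>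
    hΔ ⟨(⟨x, hx⟩, ⟨y, hy⟩), rfl⟩
  obtain ⟨r, hr⟩ := free_nonempty hT s
  have hrT := (mem_free.1 hr).1
  have hc : ∀ h : X, ∃ c : Fin k → X, h ∈ T → ∀ t ∈ T.erase h, ∃ i, c i = t := by
    intro h
    by_cases hh : h ∈ T
    · have e : (T.erase h).card = k := by rw [card_erase_of_mem hh, hT]; rfl
      exact ⟨fun i => ((T.erase h).equivFinOfCardEq e).symm i, fun _ t ht =>
        ⟨(T.erase h).equivFinOfCardEq e ⟨t, ht⟩, by simp⟩⟩
    · exact ⟨s, fun h' => absurd h' hh⟩
  choose c hc using hc
  refine ⟨∑ h ∈ T.erase r, mdist s (c h) + Δ * (free T s).card, fun M => ?_⟩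
  obtain ⟨m, hm⟩ := exists_nat_ge ((M + Δ * (free T s).card) / δ)
  rw [div_le_iff₀ hδ0] at hm
  obtain ⟨σ, s1, s2, s3⟩ := online T hT hδ' hΔ' a m [] s r hr
  refine ⟨r :: σ, by linarith, ?_⟩
  have h1 := offline T (r :: σ) r c hrT (fun x hx => by
    rcases List.mem_cons.1 hx with rfl | hx
    · exact hrT
    · exact s1 x hx) (fun h hh => hc h (mem_of_mem_erase hh))
  simp only [walk, dist_self, zero_add] at h1
  have h2 := sum_le_sum fun h (_ : h ∈ T.erase r) => opt_le_mdist_add s (c h) (r :: σ)
  rw [sum_add_distrib, sum_const, card_erase_of_mem hrT, hT, Nat.add_sub_cancel,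
    nsmul_eq_mul] at h2
  linarith

theorem mix_lower [NeZero k] (hX : ((k + 1 : ℕ) : ℕ∞) ≤ ENat.card X) (s : Fin k → X) {K : ℕ}
    (hK : 1 ≤ K) (a : Fin K → List X → Fin k) {c B : ℝ}
    (h : ∀ σ, ∑ j, runCost (a j) [] s σ ≤ K * (c * opt s σ + B)) : K + (k - 1) ≤ K * c := by
  by_contra hn
  push Not at hn
  let j0 : Fin K := ⟨0, hK⟩
  obtain ⟨E, hE⟩ := hard hX s (a j0)
  have hk : (1 : ℝ) ≤ k := by exact_mod_cast NeZero.one_le
  set c' : ℝ := max (K * c - K + 1) 0 with hc'
  have hc0 : 0 ≤ c' := le_max_right _ _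
  have hck : c' < k := max_lt (by linarith) (by linarith)
  have hc1 : K * c - K + 1 ≤ c' := le_max_left _ _
  obtain ⟨σ, h1, h2⟩ := hE ((c' * E + k * (K * B)) / (k - c') + 1)
  have h3 := h σ
  rw [← add_sum_erase _ _ (mem_univ j0)] at h3
  have h4 := sum_le_sum fun j (_ : j ∈ univ.erase j0) => opt_le_runCost (a j) s [] σ
  rw [sum_const, card_erase_of_mem (mem_univ _), card_univ, Fintype.card_fin, nsmul_eq_mul,
    Nat.cast_sub hK, Nat.cast_one] at h4
  have h5 := opt_nonneg s σ
  set x := runCost (a j0) [] s σ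
  set o := opt s σ
  have h6 : x ≤ c' * o + K * B := by nlinarith
  have h7 : k * x ≤ c' * (x + E) + k * (K * B) := by nlinarith
  have h8 : (c' * E + k * (K * B)) / (k - c') < x := by linarith
  rw [div_lt_iff₀ (by linarith)] at h8
  nlinarith

end Vale.Agent.N304B
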