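import Vale.Agent.N304B.Defs
import Vale.Agent.N304B.Fol
import Vale.Agent.N304B.Low
import Vale.Agent.P304Z.Final
import Vale.Agent.P304Z.LB1
import Vale.Agent.P304Z.LB2
import Vale.Agent.P304Z.LB3
import Vale.Agent.P304Z.LB4
import Vale.Agent.P304Z.LB5

open MeasureTheory Finset
open scoped ENNReal NNReal

namespace Vale.Agent.N304B

open Vale.Agent.P304 hiding R

variable {X : Type} [MetricSpace X] {k : ℕ}

theorem run_eq (a : List X → Fin k) (σ : List X) : ∀ (h : List X) (p : Fin k → X),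
    run a h p σ = ENNReal.ofReal (runCost a h p σ) := by
  induction σ with
  | nil => intro h p; simp [run, runCost]
  | cons r σ ih =>
    intro h p
    simp only [run, runCost]
    rw [ih, edist_dist, ENNReal.ofReal_add dist_nonneg (runCost_nonneg _ _ _ _)]

theorem cost_eq (s : Fin k → X) (a : List X → Fin k) (σ : List X) :
    cost s a σ = ENNReal.ofReal (runCost a [] s σ) := run_eq a σ [] s

theorem OPT_eq [NeZero k] (s : Fin k → X) (σ : List X) :
    OPT s σ = ENNReal.ofReal (opt s σ) := by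
  refine le_antisymm ?_ (le_iInf fun f => ?_)
  · obtain ⟨f, hf⟩ := exists_opt_eq s σ
    refine iInf_le_of_le (fun n => if hh : n - 1 < σ.length then f ⟨n - 1, hh⟩ else 0) ?_
    rw [cost_eq, ← policyCost_eq, hf]
    refine le_of_eq (congrArg _ (congrArg _ (funext fun t => ?_)))
    have h1 : (σ.take (t + 1)).length = t + 1 := by
      have := t.2
      rw [List.length_take]; omega
    simp only [h1, add_tsub_cancel_right, t.2, ↓reduceDIte]
  · rw [cost_eq]
    exact ENNReal.ofReal_le_ofReal (opt_le_runCost _ _ _ _)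

theorem measurable_cost [NeZero k] (s : Fin k → X) (σ : List X) :
    Measurable fun a : List X → Fin k => cost s a σ := by
  simp only [cost_eq]
  exact measurable_run (A := fun a : List X → Fin k => a) (fun h => measurable_pi_apply h) s σ
    fun x _ => ENNReal.ofReal x

theorem rhs_eq [NeZero k] (s : Fin k → X) (σ : List X) (c B : ℝ≥0) :
    c * OPT s σ + B = ENNReal.ofReal (c * opt s σ + B) := by
  rw [OPT_eq, ENNReal.ofReal_add (mul_nonneg c.coe_nonneg (opt_nonneg s σ)) B.coe_nonneg,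
    ENNReal.ofReal_mul c.coe_nonneg, ENNReal.ofReal_coe_nnreal, ENNReal.ofReal_coe_nnreal]

theorem comp_iff [NeZero k] (s : Fin k → X) (c : ℝ≥0) :
    (∃ (P : Measure (List X → Fin k)) (B : ℝ≥0), IsProbabilityMeasure P ∧
      ∀ σ, ∫⁻ a, cost s a σ ∂P ≤ c * OPT s σ + B) ↔ IsCompetitive s c := by
  have key : ∀ {Ω : Type} [MeasurableSpace Ω] (P : Measure Ω) [IsProbabilityMeasure P]
      (A : Ω → List X → Fin k), (∀ h, Measurable fun ω => A ω h) → ∀ σ,
      ∫⁻ ω, cost s (A ω) σ ∂P = ENNReal.ofReal (∫ ω, policyCost s (A ω) σ ∂P) := by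
    intro Ω _ P _ A hA σ
    simp only [cost_eq, policyCost_eq]
    exact (ofReal_integral_eq_lintegral_ofReal (integrable_run hA s σ fun x _ => x)
      (Filter.Eventually.of_forall fun ω => runCost_nonneg _ _ _ _)).symm
  constructor
  · rintro ⟨P, B, hP, h⟩
    refine ⟨List X → Fin k, inferInstance, P, fun a => a, hP, fun h => measurable_pi_apply h, B,
      fun σ => ?_⟩
    have := h σ
    rw [key P (fun a => a) (fun h => measurable_pi_apply h), rhs_eq] at this
    exact (ENNReal.ofReal_le_ofReal_iff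
      (add_nonneg (mul_nonneg c.coe_nonneg (opt_nonneg s σ)) B.coe_nonneg)).1 this
  · rintro ⟨Ω, _, P, A, hP, hA, B, h⟩
    have hm : Measurable A := measurable_pi_lambda _ hA
    refine ⟨P.map A, B.toNNReal, Measure.isProbabilityMeasure_map hm.aemeasurable, fun σ => ?_⟩
    rw [lintegral_map (measurable_cost s σ) hm, key P A hA, rhs_eq]
    refine ENNReal.ofReal_le_ofReal ((h σ).trans (add_le_add le_rfl ?_))
    exact Real.le_coe_toNNReal B

theorem rho_eq [NeZero k] (s : Fin k → X) : rho s = ratio s := by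
  unfold rho ratio
  simp only [comp_iff]

theorem R_eq [NeZero k] : R k = Vale.Agent.P304.R k := by
  unfold R Vale.Agent.P304.R
  simp only [rho_eq]

theorem order : ∃ c C : ℝ, 0 < c ∧ 0 < C ∧ ∀ k : ℕ, 2 ≤ k →
    ENNReal.ofReal (c * Real.log k ^ 2) ≤ R k ∧ R k ≤ ENNReal.ofReal (C * Real.log k ^ 2) := by
  obtain ⟨c, hc, hl⟩ := Vale.Agent.P304Z.LB.lower_of Vale.Agent.P304Z.LB.stBase
    (Vale.Agent.P304Z.LB.stStep (Vale.Agent.P304Z.LB.stMid Vale.Agent.P304Z.LB.rules))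
    Vale.Agent.P304Z.LB.stExtract Vale.Agent.P304Z.LB.stReduce
  obtain ⟨C, hC, hu⟩ := Vale.Agent.P304Z.R_le_log_sq
  refine ⟨c, 9 * C, hc, by positivity, fun k hk => ?_⟩
  have : NeZero k := ⟨by omega⟩
  rw [R_eq]
  have hk2 : (2 : ℝ) ≤ k := by exact_mod_cast hk
  have hlog : Real.log 2 ≤ Real.log k := Real.log_le_log (by norm_num) hk2
  have hl2 := Real.log_two_gt_d9
  constructor
  · refine le_trans (ENNReal.ofReal_le_ofReal ?_) (hl k (by omega))
    refine mul_le_mul_of_nonneg_left ?_ hc.le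
    nlinarith
  · refine (hu k (by omega)).trans (ENNReal.ofReal_le_ofReal ?_)
    have h1 : (1 + Real.log k) ^ 2 ≤ (3 * Real.log k) ^ 2 :=
      pow_le_pow_left₀ (by linarith) (by linarith) 2
    nlinarith

theorem mix_iff [NeZero k] (s : Fin k → X) {K : ℕ} (hK : 1 ≤ K) (c : ℝ≥0) :
    Mix K s c ↔ ∃ (a : Fin K → List X → Fin k) (B : ℝ), ∀ σ,
      ∑ j, runCost (a j) [] s σ ≤ K * (c * opt s σ + B) := by
  have hK0 : (0 : ℝ) < K := by exact_mod_cast hK
  have key : ∀ (a : Fin K → List X → Fin k) (B : ℝ≥0) (σ : List X),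
      (∑ j, cost s (a j) σ) / K ≤ c * OPT s σ + B ↔
        ∑ j, runCost (a j) [] s σ ≤ K * (c * opt s σ + B) := by
    intro a B σ
    simp only [cost_eq]
    rw [rhs_eq, ← ENNReal.ofReal_sum_of_nonneg fun j _ => runCost_nonneg _ _ _ _,
      ← ENNReal.ofReal_natCast, ← ENNReal.ofReal_div_of_pos hK0,
      ENNReal.ofReal_le_ofReal_iff (add_nonneg (mul_nonneg c.coe_nonneg (opt_nonneg s σ)) B.coe_nonneg),
      div_le_iff₀' hK0]
  constructor
  · rintro ⟨a, B, h⟩
    exact ⟨a, B, fun σ => (key a B σ).1 (h σ)⟩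
  · rintro ⟨a, B, h⟩
    exact ⟨a, B.toNNReal, fun σ => (key a _ σ).2 ((h σ).trans (mul_le_mul_of_nonneg_left
      (add_le_add le_rfl (Real.le_coe_toNNReal B)) hK0.le))⟩

theorem rho_le_rhoMix [NeZero k] (s : Fin k → X) {K : ℕ} (hK : 1 ≤ K) :
    rho s ≤ rhoMix K s := by
  refine le_iInf₂ fun c hc => ?_
  obtain ⟨a, B, h⟩ := hc
  have hK0 : (K : ℝ≥0∞) ≠ 0 := by exact_mod_cast (by omega : K ≠ 0)
  refine iInf₂_le_of_le c ⟨(K : ℝ≥0∞)⁻¹ • ∑ j, Measure.dirac (a j), B, ⟨?_⟩, fun σ => ?_⟩ le_rfl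
  · simp [ENNReal.inv_mul_cancel hK0]
  · rw [lintegral_smul_measure, lintegral_finsetSum_measure]
    simp only [lintegral_dirac' _ (measurable_cost s σ)]
    rw [smul_eq_mul, mul_comm, ← div_eq_mul_inv]
    exact h σ

theorem le_rhoMix [NeZero k] (hX : ((k + 1 : ℕ) : ℕ∞) ≤ ENat.card X) (s : Fin k → X) {K : ℕ}
    (hK : 1 ≤ K) : ENNReal.ofReal (1 + (k - 1) / K) ≤ rhoMix K s := by
  refine le_iInf₂ fun c hc => ?_
  obtain ⟨a, B, h⟩ := (mix_iff s hK c).1 hc
  have h1 := mix_lower hX s hK a h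
  have hK0 : (0 : ℝ) < K := by exact_mod_cast hK
  rw [← ENNReal.ofReal_coe_nnreal]
  refine ENNReal.ofReal_le_ofReal ?_
  rw [← le_sub_iff_add_le', div_le_iff₀' hK0]
  linarith

theorem rhoMix_le [NeZero k] [Finite X] (hX : ((k + 1 : ℕ) : ℕ∞) ≤ ENat.card X) (s : Fin k → X)
    {K : ℕ} (hK : 1 ≤ K) :
    rhoMix K s ≤ ENNReal.ofReal (1 + ((Nat.card X).choose k : ℝ) ^ 2 / K) * rho s := by
  have := Fintype.ofFinite X
  have hK0 : (0 : ℝ) < K := by exact_mod_cast hK
  have hX' : k ≤ Fintype.card X := by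
    rw [ENat.card_eq_coe_fintype_card] at hX
    have : k + 1 ≤ Fintype.card X := by exact_mod_cast hX
    omega
  rw [Nat.card_eq_fintype_card, rho_eq]
  set β : ℝ := 1 + ((Fintype.card X).choose k : ℝ) ^ 2 / K with hβ
  have hβ0 : 0 < β := by positivity
  unfold ratio
  simp only [ENNReal.mul_iInf_of_ne (ENNReal.ofReal_pos.2 hβ0).ne' ENNReal.ofReal_ne_top]
  refine le_iInf₂ fun c hc => iInf₂_le_of_le (β.toNNReal * c) ?_ (by
    rw [ENNReal.coe_mul]; rfl)
  obtain ⟨a, B, h⟩ := barely hX' s hc K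
  refine (mix_iff s hK _).2 ⟨a, B / K, fun σ => (h σ).trans (le_of_eq ?_)⟩
  rw [NNReal.coe_mul, Real.coe_toNNReal _ hβ0.le, hβ]
  field_simp

theorem Mix.mono {K : ℕ} {s : Fin k → X} {c c' : ℝ≥0∞} (h : Mix K s c) (hc : c ≤ c') :
    Mix K s c' := by
  obtain ⟨a, B, h⟩ := h
  exact ⟨a, B, fun σ => (h σ).trans (add_le_add (mul_le_mul_left hc _) le_rfl)⟩

theorem few_bits : ∃ C : ℝ, 0 < C ∧ ∀ k : ℕ, 2 ≤ k → ∀ (X : Type) [MetricSpace X] [Finite X],
    k + 1 ≤ Nat.card X → ∀ (s : Fin k → X) (K : ℕ), (Nat.card X).choose k ^ 2 ≤ K →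
      Mix K s (ENNReal.ofReal (C * Real.log k ^ 2)) := by
  obtain ⟨c, C, -, hC, h⟩ := order
  refine ⟨3 * C, by positivity, fun k hk X _ _ hX s K hK => ?_⟩
  have : NeZero k := ⟨by omega⟩
  have hX' : ((k + 1 : ℕ) : ℕ∞) ≤ ENat.card X := by
    rw [ENat.card_eq_coe_natCard]; exact_mod_cast hX
  have hN : 0 < (Nat.card X).choose k := Nat.choose_pos (by omega)
  have hK1 : 1 ≤ K := le_trans (Nat.pow_pos hN) hK
  have hK0 : (0 : ℝ) < K := by exact_mod_cast hK1
  have h1 : rho s ≤ R k := le_iSup_of_le X (le_iSup_of_le inferInstance (le_iSup_of_le hX'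
    (le_iSup (fun s : Fin k → X => rho s) s)))
  have h2 : (1 + ((Nat.card X).choose k : ℝ) ^ 2 / K) ≤ 2 := by
    have : ((Nat.card X).choose k : ℝ) ^ 2 / K ≤ 1 := by
      rw [div_le_one hK0]; exact_mod_cast hK
    linarith
  have hl : 0 < Real.log k := Real.log_pos (by exact_mod_cast hk)
  have h3 : rhoMix K s < ENNReal.ofReal (3 * C * Real.log k ^ 2) := by
    refine lt_of_le_of_lt ((rhoMix_le hX' s hK1).trans (mul_le_mul'
      (ENNReal.ofReal_le_ofReal h2) (h1.trans (h k hk).2))) ?_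
    rw [← ENNReal.ofReal_mul (by norm_num), ENNReal.ofReal_lt_ofReal_iff (by positivity)]
    have : 0 < C * Real.log k ^ 2 := by positivity
    linarith
  unfold rhoMix at h3
  obtain ⟨c', h3⟩ := iInf_lt_iff.1 h3
  obtain ⟨hc', h3⟩ := iInf_lt_iff.1 h3
  exact hc'.mono h3.le

end Vale.Agent.N304B
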