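import Mathlib

open MeasureTheory
open scoped ENNReal NNReal

namespace Vale.Agent.N304B

variable {X : Type} [MetricSpace X] {k : ℕ}

/-- Total movement of the deterministic online policy `a` on the remaining requests, after the
history `h`, with the `k` labelled servers at `p`: the request `r` is served by moving the server
`a (h ++ [r])` to `r`, the others stay. -/
noncomputable def run (a : List X → Fin k) : List X → (Fin k → X) → List X → ℝ≥0∞
  | _, _, [] => 0
  | h, p, r :: σ =>
      edist (p (a (h ++ [r]))) r + run a (h ++ [r]) (Function.update p (a (h ++ [r])) r) σ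

/-- `cost_{a,s}(σ)`. -/
noncomputable def cost (s : Fin k → X) (a : List X → Fin k) (σ : List X) : ℝ≥0∞ := run a [] s σ

/-- `OPT_s(σ)`: the `t`-th request is served by the server `f t`, `f` chosen knowing `σ`. -/
noncomputable def OPT (s : Fin k → X) (σ : List X) : ℝ≥0∞ :=
  ⨅ f : ℕ → Fin k, cost s (fun h => f h.length) σ

/-- `ρ(X, d, s)`; a randomized policy is a probability measure on deterministic policies. -/
noncomputable def rho (s : Fin k → X) : ℝ≥0∞ :=
  ⨅ (c : ℝ≥0) (_ : ∃ (P : Measure (List X → Fin k)) (B : ℝ≥0), IsProbabilityMeasure P ∧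
    ∀ σ, ∫⁻ a, cost s a σ ∂P ≤ c * OPT s σ + B), (c : ℝ≥0∞)

/-- `R(k)`. -/
noncomputable def R (k : ℕ) : ℝ≥0∞ :=
  ⨆ (X : Type) (_ : MetricSpace X) (_ : ((k + 1 : ℕ) : ℕ∞) ≤ ENat.card X) (s : Fin k → X), rho s

/-- The uniform choice, made before the first request, of one of `K` deterministic policies is
`c`-competitive. -/
def Mix (K : ℕ) (s : Fin k → X) (c : ℝ≥0∞) : Prop :=
  ∃ (a : Fin K → List X → Fin k) (B : ℝ≥0), ∀ σ, (∑ j, cost s (a j) σ) / K ≤ c * OPT s σ + B

/-- `ρ_K(X, d, s)`: the best ratio of such a choice. -/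
noncomputable def rhoMix (K : ℕ) (s : Fin k → X) : ℝ≥0∞ :=
  ⨅ (c : ℝ≥0) (_ : Mix K s c), (c : ℝ≥0∞)

end Vale.Agent.N304B
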